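import Mathlib.Topology.Homotopy.Lifting
import Mathlib.Topology.FiberBundle.Basic

/-!
# P216-D, block [D-NDH] : locally constant cocycles over a simply connected space are coboundaries
-/

set_option linter.all false

open Set Filter Topology

namespace Vale.Agent.P216.D246

/-- The bundle of a locally constant cocycle. -/
noncomputable def coreOf {B ι G : Type} [TopologicalSpace B] [Group G] [TopologicalSpace G]
    [DiscreteTopology G] (U : ι → Set B) (hU : ∀ i, IsOpen (U i)) (ix : B → ι)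
    (hix : ∀ b, b ∈ U (ix b)) (T : ι → ι → B → G)
    (hloc : ∀ i j, ∀ b ∈ U i ∩ U j, ∀ᶠ b' in 𝓝 b, T i j b' = T i j b)
    (hself : ∀ i, ∀ b ∈ U i, T i i b = 1)
    (hco : ∀ i j l, ∀ b ∈ U i ∩ U j ∩ U l, T i j b * T j l b = T i l b) :
    FiberBundleCore ι B G where
  baseSet := U
  isOpen_baseSet := hU
  indexAt := ix
  mem_baseSet_at := hix
  coordChange i j b v := T j i b * v
  coordChange_self i b hb v := by rw [hself i b hb, one_mul]
  continuousOn_coordChange i j := by
    rintro ⟨b, v⟩ ⟨hb, -⟩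
    apply ContinuousAt.continuousWithinAt
    have h1 : ∀ᶠ p : B × G in 𝓝 (b, v), T j i p.1 * p.2 = T j i b * v := by
      rw [nhds_prod_eq, nhds_discrete G, Filter.prod_pure]
      rw [Filter.eventually_map]
      refine (hloc j i b ⟨hb.2, hb.1⟩).mono fun b' hb' => ?_
      change T j i b' * v = T j i b * v
      rw [hb']
    exact (continuousAt_const.congr (h1.mono fun p hp => hp.symm))
  coordChange_comp i j l b hb v := by
    rw [← mul_assoc, hco l j i b ⟨⟨hb.2, hb.1.2⟩, hb.1.1⟩]

theorem exists_section {B ι G : Type} [TopologicalSpace B] [SimplyConnectedSpace B]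
    [LocallyPathConnectedSpace B] [Group G] (U : ι → Set B) (hU : ∀ i, IsOpen (U i))
    (cov : ∀ b, ∃ i, b ∈ U i) (T : ι → ι → B → G)
    (hloc : ∀ i j, ∀ b ∈ U i ∩ U j, ∀ᶠ b' in 𝓝 b, T i j b' = T i j b)
    (hself : ∀ i, ∀ b ∈ U i, T i i b = 1)
    (hco : ∀ i j l, ∀ b ∈ U i ∩ U j ∩ U l, T i j b * T j l b = T i l b) :
    ∃ σ : ι → B → G, (∀ i, ∀ b ∈ U i, ∀ᶠ b' in 𝓝 b, σ i b' = σ i b) ∧
      ∀ i j, ∀ b ∈ U i ∩ U j, σ i b = T i j b * σ j b := by
  classical
  letI : TopologicalSpace G := ⊥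
  haveI : DiscreteTopology G := ⟨rfl⟩
  choose ix hix using cov
  let Z := coreOf U hU ix hix T hloc hself hco
  have hcov : IsCoveringMap Z.proj :=
    IsCoveringMap.mk Z.proj (fun _ => G) (fun b => Z.localTriv (ix b)) fun b => hix b
  obtain ⟨b₀⟩ : Nonempty B := inferInstance
  obtain ⟨s, ⟨-, hs⟩, -⟩ := hcov.existsUnique_continuousMap_lifts (ContinuousMap.id B) b₀
    (⟨b₀, (1 : G)⟩ : Z.TotalSpace) rfl
  have hs1 : ∀ b, (s b).1 = b := fun b => congrFun hs b
  refine ⟨fun i b => (Z.localTriv i (s b)).2, fun i b hb => ?_, fun i j b hb => ?_⟩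
  · have h1 : ContinuousAt (fun b => (Z.localTriv i (s b)).2) b := by
      have h2 : ContinuousAt (Z.localTriv i) (s b) := by
        refine (Z.localTriv i).continuousAt ?_
        rw [Z.mem_localTriv_source]
        change (s b).1 ∈ U i
        rw [hs1]
        exact hb
      exact continuousAt_snd.comp (h2.comp s.continuous.continuousAt)
    have h3 := h1.tendsto
    rw [nhds_discrete G] at h3
    exact h3.eventually (p := fun y => y = (Z.localTriv i (s b)).2) (eventually_pure.2 rfl)
  · have key : ∀ (b' : B) (v : G), b' = b → T i (ix b') b' * v = T i j b * (T j (ix b') b' * v) := by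
      rintro b' v rfl
      rw [← mul_assoc, hco i j (ix b') b' ⟨⟨hb.1, hb.2⟩, hix b'⟩]
    exact key _ _ (hs1 b)

end Vale.Agent.P216.D246
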