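import Vale.Agent.P216.D246.Dim
import Vale.Agent.P216.H934D.Bridge

/-!
# P216-D, block [D-NDH] : the dimension of a simply connected closed manifold with monogenic
cohomology is `d h`
-/

set_option linter.all false

open Set

namespace Vale.Agent.P216.D246

open Vale.Agent.P216.AS Vale.Agent.P216.Sl Vale.Agent.P216.PS Vale.Agent.P216.ASCoh
  Vale.Agent.P216.H934D

variable {M : Type} [MetricSpace M] [CompactSpace M] {k : Type} [Field k]

/-- **`dim M = d h`.** -/
theorem finrank_eq_of_baseK [SimplyConnectedSpace M] {E : Type} [NormedAddCommGroup E]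
    [NormedSpace ℝ E] [FiniteDimensional ℝ E] [ChartedSpace E M] (h2 : (2 : k) ≠ 0)
    (hn : 1 ≤ Module.finrank ℝ E) {d h : ℕ} (hd : 1 ≤ d) (K : BaseK k M d h) :
    Module.finrank ℝ E = d * h := by
  refine finrank_eq (M := M) (k := k) h2 hn (pw_cocL K.hε K.cξ h) (K.ne h le_rfl) fun q hq u hu => ?_
  refine K.zero q (fun j hj e => ?_) u hu
  have := Nat.mul_le_mul_left d hj
  omega

theorem finrank_eq_of_monogenic [SimplyConnectedSpace M] {E : Type} [NormedAddCommGroup E]
    [NormedSpace ℝ E] [FiniteDimensional ℝ E] [ChartedSpace E M] (h2 : (2 : k) ≠ 0)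
    (hn : 1 ≤ Module.finrank ℝ E) {d h : ℕ} (hd : 1 ≤ d) (hM : Monogenic M k d h) :
    Module.finrank ℝ E = d * h := by
  obtain ⟨K⟩ := baseK_of_monogenic hd hM
  exact finrank_eq_of_baseK h2 hn hd K

end Vale.Agent.P216.D246
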