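import Vale.Agent.P216.D246.Cube
import Vale.Agent.P216.H133C.ThomC

/-!
# P216-D, block [D-THOM] : box classes in a coordinate cube, with parameters
-/

set_option linter.all false

open Set

namespace Vale.Agent.P216.D246

open Vale.Agent.P216.AS Vale.Agent.P216.H901 Vale.Agent.P216.H83 Vale.Agent.P216.H133C
  Vale.Agent.P216.C313

namespace Cub

section Sets

variable {M E' : Type} [MetricSpace M] [MetricSpace E'] {n : ℕ} (c : Cub M n)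

/-- `{(a, z) | a ∈ box (y z) δ}` -/
def Wd (y : E' → Fin n → ℝ) (δ : ℝ) (Z : Set E') : Set (M × E') :=
  {p | p.2 ∈ Z ∧ p.1 ∈ c.D ∧ ‖c.φ p.1 - y p.2‖ ≤ δ}

/-- `{(a, z) | a ∉ open box (y z) δ}` -/
def Ad (y : E' → Fin n → ℝ) (δ : ℝ) (Z : Set E') : Set (M × E') :=
  {p | p.2 ∈ Z ∧ (p.1 ∈ c.D → δ ≤ ‖c.φ p.1 - y p.2‖)}

variable {c} {y : E' → Fin n → ℝ} {δ : ℝ} {Z : Set E'}

theorem Ad_sub : c.Ad y δ Z ⊆ (univ : Set M) ×ˢ Z := fun _ hp => ⟨mem_univ _, hp.1⟩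

theorem Wd_sub : c.Wd y δ Z ⊆ (univ : Set M) ×ˢ Z := fun _ hp => ⟨mem_univ _, hp.1⟩

theorem cont_F (hy : ContinuousOn y Z) :
    ContinuousOn (fun p : M × E' => ‖c.φ p.1 - y p.2‖) (c.D ×ˢ Z) :=
  ((c.φ_cont.comp continuousOn_fst fun p hp => hp.1).sub
    (hy.comp continuousOn_snd fun p hp => hp.2)).norm

theorem compact_D [CompactSpace M] : IsCompact c.D := c.closed.isCompact

theorem compact_Wd [CompactSpace M] (hZ : IsCompact Z) (hy : ContinuousOn y Z) :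
    IsCompact (c.Wd y δ Z) := by
  have hc : IsClosed (c.D ×ˢ Z) := c.closed.prod hZ.isClosed
  have h := (cont_F (c := c) hy).preimage_isClosed_of_isClosed hc (isClosed_Iic (a := δ))
  have e : c.Wd y δ Z = (c.D ×ˢ Z) ∩ (fun p : M × E' => ‖c.φ p.1 - y p.2‖) ⁻¹' Iic δ := by
    ext p
    exact ⟨fun h => ⟨⟨h.2.1, h.1⟩, h.2.2⟩, fun h => ⟨h.1.2, h.1.1, h.2⟩⟩
  rw [e]
  exact (c.compact_D.prod hZ).of_isClosed_subset h inter_subset_left

theorem Ad_eq (hb : ∀ z ∈ Z, ‖y z‖ + δ ≤ 2) : c.Ad y δ Z =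
    ({x | x ∈ c.D ∧ ‖c.φ x‖ < 2}ᶜ ×ˢ Z) ∪
      ((c.D ×ˢ Z) ∩ (fun p : M × E' => ‖c.φ p.1 - y p.2‖) ⁻¹' Ici δ) := by
  ext p
  constructor
  · rintro ⟨h1, h2⟩
    by_cases h : p.1 ∈ c.D ∧ ‖c.φ p.1‖ < 2
    · exact Or.inr ⟨⟨h.1, h1⟩, h2 h.1⟩
    · exact Or.inl ⟨h, h1⟩
  · rintro (⟨h1, h2⟩ | ⟨⟨h1, h2⟩, h3⟩)
    · refine ⟨h2, fun hD => ?_⟩
      have h4 : 2 ≤ ‖c.φ p.1‖ := by
        by_contra hcon
        exact h1 ⟨hD, not_le.1 hcon⟩
      have h5 := norm_sub_norm_le (c.φ p.1) (y p.2)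
      have h6 := hb _ h2
      linarith
    · exact ⟨h2, fun _ => h3⟩

theorem compact_Ad [CompactSpace M] (hZ : IsCompact Z) (hy : ContinuousOn y Z)
    (hb : ∀ z ∈ Z, ‖y z‖ + δ ≤ 2) : IsCompact (c.Ad y δ Z) := by
  rw [Ad_eq hb]
  refine (c.open_int.isClosed_compl.isCompact.prod hZ).union ?_
  have hc : IsClosed (c.D ×ˢ Z) := c.closed.prod hZ.isClosed
  exact (c.compact_D.prod hZ).of_isClosed_subset
    ((cont_F (c := c) hy).preimage_isClosed_of_isClosed hc isClosed_Ici) inter_subset_left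

theorem union_eq : (univ : Set M) ×ˢ Z = c.Ad y δ Z ∪ c.Wd y δ Z := by
  ext p
  constructor
  · rintro ⟨-, hp⟩
    by_cases h : p.1 ∈ c.D ∧ ‖c.φ p.1 - y p.2‖ ≤ δ
    · exact Or.inr ⟨hp, h⟩
    · refine Or.inl ⟨hp, fun hD => ?_⟩
      by_contra hcon
      exact h ⟨hD, (not_le.1 hcon).le⟩
  · rintro (h | h)
    exacts [Ad_sub h, Wd_sub h]

/-- The parametrisation of the boxes. -/
def Th (c : Cub M n) (y : E' → Fin n → ℝ) (δ : ℝ) (p : E' × (Fin n → ℝ)) : M × E' :=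
  (c.ψ (fun i => y p.1 i + δ * (2 * p.2 i - 1)), p.1)

/-- The inverse. -/
noncomputable def Ti (c : Cub M n) (y : E' → Fin n → ℝ) (δ : ℝ) (p : M × E') :
    E' × (Fin n → ℝ) := (p.2, fun i => ((c.φ p.1 i - y p.2 i) / δ + 1) / 2)

theorem nrm_le {u v : Fin n → ℝ} (hδ : 0 ≤ δ) (hu : ∀ i, u i ∈ Icc (0 : ℝ) 1) :
    ‖(fun i => v i + δ * (2 * u i - 1)) - v‖ ≤ δ := by
  refine (pi_norm_le_iff_of_nonneg hδ).2 fun i => ?_
  rw [Pi.sub_apply, add_sub_cancel_left, Real.norm_eq_abs, abs_mul, abs_of_nonneg hδ]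
  have : |2 * u i - 1| ≤ 1 := by
    rw [abs_le]
    constructor <;> linarith [(hu i).1, (hu i).2]
  nlinarith

theorem nrm_le2 {u v : Fin n → ℝ} (hδ : 0 ≤ δ) (hv : ‖v‖ + δ ≤ 2)
    (hu : ∀ i, u i ∈ Icc (0 : ℝ) 1) : ‖(fun i => v i + δ * (2 * u i - 1))‖ ≤ 2 := by
  have h1 := nrm_le (v := v) hδ hu
  have h2 := norm_le_norm_add_norm_sub' (fun i => v i + δ * (2 * u i - 1)) v
  linarith

theorem nrm_ge {u v : Fin n → ℝ} (hδ : 0 ≤ δ) {i : Fin n} (hi : u i = 0 ∨ u i = 1) :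
    δ ≤ ‖(fun i => v i + δ * (2 * u i - 1)) - v‖ := by
  have h := norm_le_pi_norm ((fun i => v i + δ * (2 * u i - 1)) - v) i
  rw [Pi.sub_apply, add_sub_cancel_left, Real.norm_eq_abs, abs_mul, abs_of_nonneg hδ] at h
  have : |2 * u i - 1| = 1 := by
    rcases hi with hi | hi <;> rw [hi] <;> norm_num
  rw [this, mul_one] at h
  exact h

theorem isMap_Th (hδ : 0 ≤ δ) (hZ : IsCompact Z) (hy : ContinuousOn y Z)
    (hb : ∀ z ∈ Z, ‖y z‖ + δ ≤ 2) :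
    IsMap (tr (E' × (Fin n → ℝ))) (tr (M × E')) (cbE n Z) (c.Wd y δ Z) (Th c y δ) := by
  refine isMap_of (isCompact_cbE hZ) ?_ fun p hp => ?_
  · refine ContinuousOn.prodMk (c.ψ_cont.comp ?_ fun p hp => nrm_le2 hδ (hb _ hp.1) hp.2)
      continuousOn_fst
    refine continuousOn_pi.2 fun i => ?_
    have h1 : ContinuousOn (fun p : E' × (Fin n → ℝ) => y p.1 i) (cbE n Z) :=
      (continuous_apply i).comp_continuousOn (hy.comp continuousOn_fst fun p hp => hp.1)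
    exact h1.add (by fun_prop)
  · have h1 := nrm_le2 hδ (hb _ hp.1) hp.2
    refine ⟨hp.1, c.ψ_mem _ h1, ?_⟩
    change ‖c.φ (c.ψ _) - y p.1‖ ≤ δ
    rw [c.φψ _ h1]
    exact nrm_le hδ hp.2

theorem mapsTo_Th (hδ : 0 ≤ δ) (hb : ∀ z ∈ Z, ‖y z‖ + δ ≤ 2) :
    MapsTo (Th c y δ) (bdE n Z ∅) (c.Ad y δ Z ∩ c.Wd y δ Z) := by
  rintro p ⟨hp, h | ⟨i, hi⟩⟩
  · exact h.elim
  · have h1 := nrm_le2 hδ (hb _ hp.1) hp.2
    have e : c.φ (c.ψ (fun i => y p.1 i + δ * (2 * p.2 i - 1))) = _ := c.φψ _ h1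
    refine ⟨⟨hp.1, fun _ => ?_⟩, hp.1, c.ψ_mem _ h1, ?_⟩
    · change δ ≤ ‖c.φ (c.ψ _) - y p.1‖
      rw [e]
      exact nrm_ge hδ hi
    · change ‖c.φ (c.ψ _) - y p.1‖ ≤ δ
      rw [e]
      exact nrm_le hδ hp.2

theorem isMap_Ti [CompactSpace M] (hδ : 0 < δ) (hZ : IsCompact Z) (hy : ContinuousOn y Z) :
    IsMap (tr (M × E')) (tr (E' × (Fin n → ℝ))) (c.Wd y δ Z) (cbE n Z) (Ti c y δ) := by
  refine isMap_of (compact_Wd hZ hy) ?_ fun p hp => ⟨hp.1, fun i => ?_⟩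
  · refine ContinuousOn.prodMk continuousOn_snd (continuousOn_pi.2 fun i => ?_)
    have h1 : ContinuousOn (fun p : M × E' => y p.2 i) (c.Wd y δ Z) :=
      (continuous_apply i).comp_continuousOn (hy.comp continuousOn_snd fun p hp => hp.1)
    have h2 : ContinuousOn (fun p : M × E' => c.φ p.1 i) (c.Wd y δ Z) :=
      (continuous_apply i).comp_continuousOn (c.φ_cont.comp continuousOn_fst fun p hp => hp.2.1)
    exact (((h2.sub h1).div_const _).add continuousOn_const).div_const _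
  · have h1 : |c.φ p.1 i - y p.2 i| ≤ δ := (norm_le_pi_norm (c.φ p.1 - y p.2) i).trans hp.2.2
    have h2 : |(c.φ p.1 i - y p.2 i) / δ| ≤ 1 := by
      rw [abs_div, abs_of_pos hδ]
      exact (div_le_one hδ).2 h1
    rw [abs_le] at h2
    change ((c.φ p.1 i - y p.2 i) / δ + 1) / 2 ∈ Icc (0 : ℝ) 1
    constructor <;> linarith [h2.1, h2.2]

theorem mapsTo_Ti (hδ : 0 < δ) :
    MapsTo (Ti c y δ) (c.Ad y δ Z ∩ c.Wd y δ Z) (bdE n Z ∅) := by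
  rintro p ⟨h1, h2⟩
  have h3 : ∀ i, |(c.φ p.1 i - y p.2 i) / δ| ≤ 1 := fun i => by
    have h1 : |c.φ p.1 i - y p.2 i| ≤ δ := (norm_le_pi_norm (c.φ p.1 - y p.2) i).trans h2.2.2
    rw [abs_div, abs_of_pos hδ]
    exact (div_le_one hδ).2 h1
  refine ⟨⟨h2.1, fun i => ?_⟩, Or.inr ?_⟩
  · have h4 := abs_le.1 (h3 i)
    change ((c.φ p.1 i - y p.2 i) / δ + 1) / 2 ∈ Icc (0 : ℝ) 1
    constructor <;> linarith [h4.1, h4.2]
  · by_contra hcon
    push Not at hcon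
    have h5 : ‖c.φ p.1 - y p.2‖ < δ := by
      refine (pi_norm_lt_iff hδ).2 fun i => ?_
      obtain ⟨h6, h7⟩ := hcon i
      change ((c.φ p.1 i - y p.2 i) / δ + 1) / 2 ≠ 0 at h6
      change ((c.φ p.1 i - y p.2 i) / δ + 1) / 2 ≠ 1 at h7
      have h8 := abs_le.1 (h3 i)
      have h9 : |(c.φ p.1 i - y p.2 i) / δ| < 1 := by
        rw [abs_lt]
        constructor
        · refine lt_of_le_of_ne h8.1 fun h => h6 ?_
          rw [← h]; norm_num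
        · refine lt_of_le_of_ne h8.2 fun h => h7 ?_
          rw [h]; norm_num
      rw [abs_div, abs_of_pos hδ, div_lt_one hδ] at h9
      exact h9
    exact absurd (h1.2 h2.2.1) (not_le.2 h5)

theorem Ti_Th (hδ : 0 < δ) (hb : ∀ z ∈ Z, ‖y z‖ + δ ≤ 2) :
    ∀ p ∈ cbE n Z, Ti c y δ (Th c y δ p) = p := by
  rintro ⟨z, u⟩ hp
  have h1 := nrm_le2 hδ.le (hb _ hp.1) hp.2
  refine Prod.ext rfl (funext fun i => ?_)
  change ((c.φ (c.ψ _) i - y z i) / δ + 1) / 2 = u i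
  rw [c.φψ _ h1]
  change ((y z i + δ * (2 * u i - 1) - y z i) / δ + 1) / 2 = u i
  field_simp
  ring

theorem Th_Ti (hδ : 0 < δ) : ∀ p ∈ c.Wd y δ Z, Th c y δ (Ti c y δ p) = p := by
  rintro ⟨a, z⟩ hp
  refine Prod.ext ?_ rfl
  change c.ψ (fun i => y z i + δ * (2 * (((c.φ a i - y z i) / δ + 1) / 2) - 1)) = a
  have : (fun i => y z i + δ * (2 * (((c.φ a i - y z i) / δ + 1) / 2) - 1)) = c.φ a := by
    funext i
    field_simp
    ring
  rw [this]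
  exact c.ψφ a hp.2.1

end Sets

section Coh

variable {M E' : Type} [MetricSpace M] [CompactSpace M] [MetricSpace E'] {n : ℕ} {c : Cub M n}
  {y : E' → Fin n → ℝ} {δ : ℝ} {Z : Set E'} {k : Type} [Field k]

theorem isMap_ThX (hδ : 0 ≤ δ) (hZ : IsCompact Z) (hy : ContinuousOn y Z)
    (hb : ∀ z ∈ Z, ‖y z‖ + δ ≤ 2) :
    IsMap (tr (E' × (Fin n → ℝ))) (tr (M × E')) (cbE n Z) ((univ : Set M) ×ˢ Z) (Th c y δ) :=
  (isMap_Th hδ hZ hy hb).mono le_rfl fun _ hp => ⟨mem_univ _, hp.1⟩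

theorem mapsTo_ThX (hδ : 0 ≤ δ) (hb : ∀ z ∈ Z, ‖y z‖ + δ ≤ 2) :
    MapsTo (Th c y δ) (bdE n Z ∅) (c.Ad y δ Z) := fun _ hp => (mapsTo_Th hδ hb hp).1

/-- **The box classes with parameters.** -/
theorem box_bij (h2 : (2 : k) ≠ 0) (hδ : 0 < δ) (hZ : IsCompact Z) (hy : ContinuousOn y Z)
    (hb : ∀ z ∈ Z, ‖y z‖ + δ ≤ 2) (q : ℕ) :
    Function.Bijective (pullR (on k) (isMap_ThX (c := c) hδ.le hZ hy hb) bdE_sub
      (mapsTo_ThX hδ.le hb) q : Hr (tr (M × E')) (on k) ((univ : Set M) ×ˢ Z) (c.Ad y δ Z) q →ₗ[k]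
        Hr (tr (E' × (Fin n → ℝ))) (on k) (cbE n Z) (bdE n Z ∅) q) := by
  have h1 := strong_excision (k := k) (χ := on k) (tw_tr h2 _) (compact_Ad (c := c) hZ hy hb)
    (compact_Wd (c := c) (δ := δ) hZ hy) (inv_tr _) (inv_tr _) union_eq rfl Wd_sub
    inter_subset_left q
  have h3 := pullR_bij (k := k) (isMap_Th (c := c) hδ.le hZ hy hb) (mapsTo_Th hδ.le hb)
    (isMap_Ti hδ hZ hy) (mapsTo_Ti hδ) bdE_sub inter_subset_right (Ti_Th hδ hb) (Th_Ti hδ) q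
  have h4 := h3.comp h1
  have e : (pullR (on k) (isMap_ThX (c := c) hδ.le hZ hy hb) bdE_sub
      (mapsTo_ThX hδ.le hb) q : _ → _) = (pullR (on k) (isMap_Th (c := c) hδ.le hZ hy hb) bdE_sub
      (mapsTo_Th hδ.le hb) q) ∘ (resR Wd_sub inter_subset_left q) := by
    funext z
    obtain ⟨f, hf, rfl⟩ := H.exists_mk z
    rfl
  rw [e]
  exact h4

/-! ### Slices -/

/-- The slice `a ↦ (a, z)`. -/
def sz (z : E') (a : M) : M × E' := (a, z)

theorem isMap_sz {z : E'} (hz : z ∈ Z) :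
    IsMap (tr M) (tr (M × E')) (univ : Set M) ((univ : Set M) ×ˢ Z) (sz z) where
  mapsX _ _ := ⟨mem_univ _, hz⟩
  eqv i := i.elim
  uc ε hε := ⟨ε, hε, fun x _ y _ h => by
    change dist (x, z) (y, z) < ε
    rw [Prod.dist_eq, dist_self]
    exact max_lt h hε⟩

/-- `M` minus the open box -/
def A1 (c : Cub M n) (v : Fin n → ℝ) (δ : ℝ) : Set M := {a | a ∈ c.D → δ ≤ ‖c.φ a - v‖}

theorem mapsTo_sz {z : E'} (hz : z ∈ Z) : MapsTo (sz z) (c.A1 (y z) δ) (c.Ad y δ Z) :=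
  fun _ ha => ⟨hz, ha⟩

/-- The parametrisation of one box. -/
def th (c : Cub M n) (v : Fin n → ℝ) (δ : ℝ) (p : Unit × (Fin n → ℝ)) : M :=
  c.ψ (fun i => v i + δ * (2 * p.2 i - 1))

theorem isMap_fst : IsMap (tr (M × Unit)) (tr M) ((univ : Set M) ×ˢ (univ : Set Unit)) univ
    (Prod.fst : M × Unit → M) where
  mapsX _ _ := mem_univ _
  eqv i := i.elim
  uc ε hε := ⟨ε, hε, fun x _ y _ h => (le_max_left _ _).trans_lt h⟩

variable {v : Fin n → ℝ}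

theorem isMap_th (hδ : 0 ≤ δ) (hb : ‖v‖ + δ ≤ 2) :
    IsMap (tr (Unit × (Fin n → ℝ))) (tr M) (cbE n univ) univ (th c v δ) :=
  isMap_fst.comp (isMap_ThX (c := c) (y := fun _ => v) hδ isCompact_univ continuousOn_const
    fun _ _ => hb)

theorem mapsTo_th (hδ : 0 ≤ δ) (hb : ‖v‖ + δ ≤ 2) :
    MapsTo (th c v δ) (bdE n univ ∅) (c.A1 v δ) := fun _ hp =>
  (mapsTo_ThX (c := c) (y := fun _ : Unit => v) hδ (fun _ _ => hb) hp).2

theorem th_bij (h2 : (2 : k) ≠ 0) (hδ : 0 < δ) (hb : ‖v‖ + δ ≤ 2) (q : ℕ) :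
    Function.Bijective (pullR (on k) (isMap_th (c := c) hδ.le hb) bdE_sub (mapsTo_th hδ.le hb) q :
      Hr (tr M) (on k) (univ : Set M) (c.A1 v δ) q →ₗ[k] _) := by
  have h1 := box_bij (c := c) (y := fun _ : Unit => v) h2 hδ isCompact_univ continuousOn_const
    (fun _ _ => hb) q
  have h3 := pullR_bij (k := k) (X := (univ : Set M) ×ˢ (univ : Set Unit))
    (A := c.Ad (fun _ : Unit => v) δ univ) (Y := (univ : Set M)) (B := c.A1 v δ) isMap_fst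
    (fun p hp => hp.2) (isMap_sz (mem_univ ())) (fun a ha => ⟨mem_univ _, ha⟩) Ad_sub
    (subset_univ _) (fun p _ => rfl) (fun a _ => rfl) q
  have h4 := h1.comp h3
  have e : (pullR (on k) (isMap_th (c := c) hδ.le hb) bdE_sub (mapsTo_th hδ.le hb) q :
      Hr (tr M) (on k) (univ : Set M) (c.A1 v δ) q → _) =
      (pullR (on k) (isMap_ThX (c := c) (y := fun _ : Unit => v) hδ.le isCompact_univ
        continuousOn_const (fun _ _ => hb)) bdE_sub (mapsTo_ThX hδ.le (fun _ _ => hb)) q) ∘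
      (pullR (on k) (X := (univ : Set M) ×ˢ (univ : Set Unit))
        (A := c.Ad (fun _ : Unit => v) δ univ) (A' := c.A1 v δ) isMap_fst Ad_sub
        (fun p hp => hp.2) q) := by
    funext z
    obtain ⟨f, hf, rfl⟩ := H.exists_mk z
    rfl
  rw [e]
  exact h4

/-- Compatibility of the slices with the parametrisations. -/
theorem slice_th (hδ : 0 ≤ δ) (hZ : IsCompact Z) (hy : ContinuousOn y Z)
    (hb : ∀ z ∈ Z, ‖y z‖ + δ ≤ 2) {z : E'} (hz : z ∈ Z) (q : ℕ)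
    (x : Hr (tr (M × E')) (on k) ((univ : Set M) ×ˢ Z) (c.Ad y δ Z) q) :
    pullR (on k) (isMap_th (c := c) hδ (hb z hz)) bdE_sub (mapsTo_th hδ (hb z hz)) q
      (pullR (on k) (isMap_sz hz) (subset_univ _) (mapsTo_sz hz) q x) =
    pullR (on k) (isMap_cbE (isMap_const (E' := Unit) hz)) bdE_sub
      (mapsTo_bdE (isMap_const hz).mapsX (mapsTo_empty _ ∅)) q
      (pullR (on k) (isMap_ThX (c := c) hδ hZ hy hb) bdE_sub (mapsTo_ThX hδ hb) q x) := by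
  obtain ⟨f, hf, rfl⟩ := H.exists_mk x
  rfl

/-- **Local uniqueness.** -/
theorem loc_uniq (h2 : (2 : k) ≠ 0) (hδ : 0 < δ) (hZ : IsCompact Z) (hy : ContinuousOn y Z)
    (hb : ∀ z ∈ Z, ‖y z‖ + δ ≤ 2)
    (x : Hr (tr (M × E')) (on k) ((univ : Set M) ×ˢ Z) (c.Ad y δ Z) n)
    (hx : ∀ (z : E') (hz : z ∈ Z),
      pullR (on k) (isMap_sz hz) (subset_univ _) (mapsTo_sz hz) n x = 0) : x = 0 := by
  apply (box_bij (c := c) h2 hδ hZ hy hb n).1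
  rw [map_zero]
  refine cube_uniq h2 n _ fun z hz => ?_
  rw [← slice_th hδ.le hZ hy hb hz, hx z hz, map_zero]

/-- the projection to the cube -/
theorem isMap_toU : IsMap (tr E') (tr Unit) Z (univ : Set Unit) (fun _ => ()) where
  mapsX _ _ := mem_univ _
  eqv i := i.elim
  uc ε hε := ⟨1, one_pos, fun x _ y _ _ => by rw [dist_self]; exact hε⟩

/-- **Local existence.** -/
theorem loc_exist (h2 : (2 : k) ≠ 0) (hδ : 0 < δ) (hZ : IsCompact Z) (hy : ContinuousOn y Z)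
    (hb : ∀ z ∈ Z, ‖y z‖ + δ ≤ 2)
    (ι : Hr (tr (Unit × (Fin n → ℝ))) (on k) (cbE n (univ : Set Unit)) (bdE n univ ∅) n) :
    ∃ x : Hr (tr (M × E')) (on k) ((univ : Set M) ×ˢ Z) (c.Ad y δ Z) n,
      ∀ (z : E') (hz : z ∈ Z),
        pullR (on k) (isMap_th (c := c) hδ.le (hb z hz)) bdE_sub (mapsTo_th hδ.le (hb z hz)) n
          (pullR (on k) (isMap_sz hz) (subset_univ _) (mapsTo_sz hz) n x) = ι := by
  obtain ⟨x, hx⟩ := (box_bij (c := c) h2 hδ hZ hy hb n).2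
    (pullR (on k) (isMap_cbE (isMap_toU (Z := Z))) bdE_sub
      (mapsTo_bdE isMap_toU.mapsX (mapsTo_empty _ ∅)) n ι)
  refine ⟨x, fun z hz => ?_⟩
  rw [slice_th hδ.le hZ hy hb hz, hx]
  have := pullR_comp (χ := on k) (isMap_cbE (n := n) (isMap_toU (Z := Z)))
    (isMap_cbE (isMap_const (E' := Unit) hz)) (bdE_sub (A := (∅ : Set Unit))) (bdE_sub)
    (mapsTo_bdE (isMap_const hz).mapsX (mapsTo_empty _ ∅))
    (mapsTo_bdE isMap_toU.mapsX (mapsTo_empty _ ∅)) ι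
  rw [← this, pullR_eq_resR (χ := on k) subset_rfl subset_rfl bdE_sub _ _ fun p _ => rfl]
  exact Hinc_refl _ _ ι

end Coh

end Cub

end Vale.Agent.P216.D246
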