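import Vale.Agent.P216.Ch2.D246.BoxComp
import Vale.Agent.P216.D773.BaseHK
import Vale.Agent.P216.H215.Comm

/-!
# P216-T, row B' : the base of the Leray zigzag over the complement of an open coordinate box of a
homology sphere
-/

set_option linter.all false

open Set

namespace Vale.Agent.P216.BoxBase

open Vale.Agent.P216.Sl Vale.Agent.P216.PS Vale.Agent.P216.H934D Vale.Agent.P216.E2L

variable {E : Type} [NormedAddCommGroup E] [NormedSpace ℝ E] [FiniteDimensional ℝ E]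
  {N : Type} [MetricSpace N] [CompactSpace N] [ChartedSpace E N] [SimplyConnectedSpace N]
  {k : Type} [Field k] {n : ℕ}

include E

/-- **Row B'**: `H^q (N ∖ box) = 0` for `q ≥ 1` and `H^0` has rank `≤ 1`, for a homology sphere `N`. -/
theorem baseH_comp (hE : Module.finrank ℝ E = n) (hn : 1 ≤ n) (B : BaseK k N n 1)
    (c : Ch2.D246.Cub N n) (v : Fin n → ℝ) (δ : ℝ) (hδ : 0 < δ) (hb : ‖v‖ + δ ≤ 2) :
    BaseH k (c.A1 v δ) (fun p => p = 0) := by
  constructor
  · intro p hp w _ hw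
    refine Ch2.D246.exL_comp_mfd (E := E) (Ch2.ok k) hE hn c v δ hδ hb (fun hq u _ hu => ?_) hw
    refine B.zero p (fun j hj e => ?_) u hu
    rcases Nat.le_one_iff_eq_zero_or_eq_one.1 hj with rfl | rfl
    · exact hp (by rw [e, Nat.mul_zero])
    · exact hq (by rw [e, Nat.mul_one])
  · rintro p rfl w w' hN hw hN' hw'
    obtain ⟨W, hWN, hW, hWe⟩ := Ch2.D246.exists_ext_mfd (E := E) (Ch2.ok k) hE hn c v δ hδ hb hw
    obtain ⟨W', hWN', hW', hWe'⟩ :=
      Ch2.D246.exists_ext_mfd (E := E) (Ch2.ok k) hE hn c v δ hδ hb hw'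
    obtain ⟨a, b, hab, he⟩ := D773.rkA_of_baseK B (p := 0) ⟨0, Nat.zero_le _, rfl⟩ W W' hWN hW
      hWN' hW'
    refine ⟨a, b, hab, H215.Comm.exL_congr one_pos (H215.Comm.exL_add (he.mono (subset_univ _)) (H215.Comm.exL_add
      (H215.Comm.exL_smul (-a) hWe) (H215.Comm.exL_smul (-b) hWe'))) fun l _ _ => ?_⟩
    ring

/-- The box is not everything: its complement is not empty and its interior is a neighbourhood of
its centre (for the choice of base points). -/
theorem ctr_notMem (c : Ch2.D246.Cub N n) (v : Fin n → ℝ) (δ : ℝ) (hδ : 0 < δ)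
    (hb : ‖v‖ + δ ≤ 2) : c.ψ v ∉ c.A1 v δ := by
  obtain ⟨h1, h2⟩ := Ch2.D246.Cub.ctr_box (c := c) hδ hb
  refine Ch2.D246.Cub.notMem_A1 h1 ?_
  rw [h2, sub_self, norm_zero]
  exact hδ

theorem isClosed_A1 (c : Ch2.D246.Cub N n) (v : Fin n → ℝ) (δ : ℝ) (hb : ‖v‖ + δ ≤ 2) :
    IsClosed (c.A1 v δ) := by
  have h := Ch2.D246.Cub.isOpen_box (c := c) hb
  have e : c.A1 v δ = {a | a ∈ c.D ∧ ‖c.φ a - v‖ < δ}ᶜ := by
    ext a
    simp only [Ch2.D246.Cub.A1, mem_ofPred_eq, mem_compl_iff, not_and, not_lt]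
  rw [e]
  exact h.isClosed_compl

end Vale.Agent.P216.BoxBase
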