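import Vale.Agent.P216.H337T.T1

/-!
# P216-T, row L: the class form of (L3) for T1
-/

set_option linter.all false

open Set BoundedContinuousFunction

namespace Vale.Agent.P216.L3C

open Vale.Agent.P216.PS Vale.Agent.P216.Sl Vale.Agent.P216.MV337
open Vale.Agent.P216.AS
open Vale.Agent.P216.H901
open Vale.Agent.P216.H83 (ovr_sub ovr_mono)
open Vale.Agent.P216.H754B (XP GP mono_FL mono_P)

section Gen

variable {k : Type} [Field k] {E M : Type} [MetricSpace E] [MetricSpace M] {ev : E → M}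
  {X : ℝ → Set E}

theorem cls_form_aux (hX : Mono X) {A : Set M} {q : ℕ} (G : ∀ t, 0 < t → Ha (tr E) (on k) (X t) q)
    (hc : ∀ s t (hs : 0 < s) (h : s ≤ t), res (hX s t hs h) q (G t (hs.trans_le h)) = G s hs)
    {Y : ℝ → Set E} (hY : ∀ t, Y t ⊆ ovr ev X A t) {t₀ : ℝ}
    (hg : ∀ t (ht : 0 < t), t₀ ≤ t → res ((hY t).trans (ovr_sub ev X A t)) q (G t ht) ≠ 0)
    (line : ∀ t > 0, ∃ T ≥ t, ∀ f f' : List E → k, CocL (ovr ev X A T) q f →
      CocL (ovr ev X A T) q f' → ∃ a a' : k, (a ≠ 0 ∨ a' ≠ 0) ∧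
        ExL (ovr ev X A t) q fun l => a * f l + a' * f' l) :
    ∀ t (ht : 0 < t), ∃ T', ∃ h : t ≤ T', ∀ u : Ha (tr E) (on k) (ovr ev X A T') q, ∃ a : k,
      res (mono_ovr hX A t T' ht h) q u = a • res (ovr_sub ev X A t) q (G t ht) := by
  intro t ht
  have ht1 : 0 < max t t₀ := lt_max_of_lt_left ht
  obtain ⟨T, hT, hl⟩ := line (max t t₀) ht1
  have htT : t ≤ T := (le_max_left _ _).trans hT
  refine ⟨T, htT, fun u => ?_⟩
  have hTp : 0 < T := ht1.trans_le hT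
  obtain ⟨f, hf, -, rfl⟩ := exists_cls u
  obtain ⟨f', hf', -, he⟩ := exists_cls (res (ovr_sub ev X A T) q (G T hTp))
  obtain ⟨a, a', hne, hex⟩ := hl f f' hf hf'
  have hs1 : ovr ev X A (max t t₀) ⊆ ovr ev X A T := mono_ovr hX A _ _ ht1 hT
  have hst : ovr ev X A t ⊆ ovr ev X A (max t t₀) := mono_ovr hX A _ _ ht (le_max_left _ _)
  -- the class of `g` at the level `t₁`
  have hG : res hs1 q (cls (tr E) (on k) f' hf') =
      res (ovr_sub ev X A (max t t₀)) q (G (max t t₀) ht1) := by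
    rw [he, res_res, ← hc (max t t₀) T ht1 hT, res_res]
  have hGt : res hst q (res (ovr_sub ev X A (max t t₀)) q (G (max t t₀) ht1)) =
      res (ovr_sub ev X A t) q (G t ht) := by
    rw [res_res, ← hc t (max t t₀) ht (le_max_left _ _), res_res]
  have hrel : a • res hs1 q (cls (tr E) (on k) f hf)
      + a' • res (ovr_sub ev X A (max t t₀)) q (G (max t t₀) ht1) = 0 := by
    rw [← hG, res_cls, res_cls, cls_smul, cls_smul, cls_add]
    exact cls_eq_zero.2 hex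
  by_cases ha : a = 0
  · exfalso
    subst ha
    have ha' : a' ≠ 0 := by simpa using hne
    rw [zero_smul, zero_add, smul_eq_zero, or_iff_right ha'] at hrel
    apply hg (max t t₀) ht1 (le_max_right _ _)
    rw [← res_res (ovr_sub ev X A (max t t₀)) (hY (max t t₀)), hrel, map_zero]
  · refine ⟨-(a⁻¹ * a'), ?_⟩
    have h1 : res hs1 q (cls (tr E) (on k) f hf) =
        (-(a⁻¹ * a')) • res (ovr_sub ev X A (max t t₀)) q (G (max t t₀) ht1) := by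
      rw [add_eq_zero_iff_eq_neg] at hrel
      have := congrArg (fun z => a⁻¹ • z) hrel
      simp only [smul_smul, inv_mul_cancel₀ ha, one_smul, smul_neg] at this
      rw [this, neg_smul]
    have h2 : res (mono_ovr hX A t T ht htT) q (cls (tr E) (on k) f hf) =
        res hst q (res hs1 q (cls (tr E) (on k) f hf)) := by
      rw [res_res]
    rw [h2, h1, map_smul, hGt]

/-- The class form, for a family. -/
theorem cls_form (hX : Mono X) {A : Set M} {q : ℕ} (g : (PMa k X hX q).Fam) {Y : ℝ → Set E}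
    (hY : ∀ t, Y t ⊆ ovr ev X A t) {t₀ : ℝ}
    (hg : ∀ t (ht : 0 < t), t₀ ≤ t →
      (res ((hY t).trans (ovr_sub ev X A t)) q : Ha (tr E) (on k) (X t) q →ₗ[k] _) (g.z t ht) ≠ 0)
    (line : ∀ t > 0, ∃ T ≥ t, ∀ f f' : List E → k, CocL (ovr ev X A T) q f →
      CocL (ovr ev X A T) q f' → ∃ a a' : k, (a ≠ 0 ∨ a' ≠ 0) ∧
        ExL (ovr ev X A t) q fun l => a * f l + a' * f' l) :
    ∀ t (ht : 0 < t), ∃ T', ∃ h : t ≤ T', ∀ u : Ha (tr E) (on k) (ovr ev X A T') q, ∃ a : k,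
      res (mono_ovr hX A t T' ht h) q u = a • res (ovr_sub ev X A t) q (g.z t ht) :=
  cls_form_aux hX (fun t ht => g.z t ht) (fun s t hs h => g.comp s t hs h) hY hg line

end Gen

section Free

variable {M : Type} [MetricSpace M] {x₀ : M} {k : Type} [Field k]

theorem P_sub_ovr {A : Set M} (hx : x₀ ∈ A) (t : ℝ) :
    P x₀ x₀ t ⊆ ovr evz (fun t => FL M t) A t := by
  intro w hw
  refine ⟨P_subset_FL hw, ?_⟩
  change w 0 ∈ A
  rw [show w 0 = x₀ from hw.2.1 0 le_rfl]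
  exact hx

/-- **(L3) in class form**, for the free loops over `A ∋ x₀`: the hypothesis `L` of `H337T.ne_odd`
from `H456T.line_over` and a family `g` of the free loops which is not zero on the based loops. -/
theorem cls_free {A : Set M} (hx : x₀ ∈ A) {q : ℕ} (g : (XP k M q).Fam) {t₀ : ℝ}
    (hg : ∀ t (ht : 0 < t), t₀ ≤ t →
      (res (P_subset_FL (a := x₀)) q : Ha (tr (ℝ →ᵇ M)) (on k) (FL M t) q →ₗ[k] _) (g.z t ht) ≠ 0)
    (line : ∀ t > 0, ∃ T ≥ t, ∀ f f' : List (ℝ →ᵇ M) → k,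
      CocL (FL M T ∩ (fun w => w 0) ⁻¹' A) q f → CocL (FL M T ∩ (fun w => w 0) ⁻¹' A) q f' →
        ∃ a a' : k, (a ≠ 0 ∨ a' ≠ 0) ∧
          ExL (FL M t ∩ (fun w => w 0) ⁻¹' A) q fun l => a * f l + a' * f' l) :
    ∀ t (ht : 0 < t), ∃ T', ∃ h : t ≤ T',
      ∀ u : Ha (tr (ℝ →ᵇ M)) (on k) (ovr evz (fun t => FL M t) A T') q, ∃ a : k,
        res (mono_ovr mono_FL A t T' ht h) q u =
          a • res (ovr_sub evz (fun t => FL M t) A t) q (g.z t ht) :=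
  cls_form (ev := evz) mono_FL g (Y := fun t => P x₀ x₀ t) (fun t => P_sub_ovr hx t) hg line

/-- Not zero on the based loops at one level: not zero at all the larger levels. -/
theorem res_ne_of_le {q : ℕ} (g : (XP k M q).Fam) {t₁ : ℝ} (ht₁ : 0 < t₁)
    (hg : (res (P_subset_FL (a := x₀)) q : Ha (tr (ℝ →ᵇ M)) (on k) (FL M t₁) q →ₗ[k] _)
      (g.z t₁ ht₁) ≠ 0) (t : ℝ) (ht : 0 < t) (h : t₁ ≤ t) :
    (res (P_subset_FL (a := x₀)) q : Ha (tr (ℝ →ᵇ M)) (on k) (FL M t) q →ₗ[k] _)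
      (g.z t ht) ≠ 0 := by
  intro h0
  apply hg
  have e : ∀ (G : Ha (tr (ℝ →ᵇ M)) (on k) (FL M t) q),
      res (P_subset_FL (a := x₀)) q (res (FL_mono h) q G) =
        res (P_mono h : P x₀ x₀ t₁ ⊆ P x₀ x₀ t) q (res (P_subset_FL (a := x₀)) q G) := by
    intro G
    rw [res_res, res_res]
  have e1 := e (g.z t ht)
  have e2 : (res (FL_mono h) q : Ha (tr (ℝ →ᵇ M)) (on k) (FL M t) q →ₗ[k] _) (g.z t ht) =
      g.z t₁ ht₁ := g.comp t₁ t ht₁ h
  rw [e2, h0, map_zero] at e1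
  exact e1

/-- **(L3) in class form**, from non-vanishing at one level. -/
theorem cls_free' {A : Set M} (hx : x₀ ∈ A) {q : ℕ} (g : (XP k M q).Fam) {t₁ : ℝ} (ht₁ : 0 < t₁)
    (hg : (res (P_subset_FL (a := x₀)) q : Ha (tr (ℝ →ᵇ M)) (on k) (FL M t₁) q →ₗ[k] _)
      (g.z t₁ ht₁) ≠ 0)
    (line : ∀ t > 0, ∃ T ≥ t, ∀ f f' : List (ℝ →ᵇ M) → k,
      CocL (FL M T ∩ (fun w => w 0) ⁻¹' A) q f → CocL (FL M T ∩ (fun w => w 0) ⁻¹' A) q f' →
        ∃ a a' : k, (a ≠ 0 ∨ a' ≠ 0) ∧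
          ExL (FL M t ∩ (fun w => w 0) ⁻¹' A) q fun l => a * f l + a' * f' l) :
    ∀ t (ht : 0 < t), ∃ T', ∃ h : t ≤ T',
      ∀ u : Ha (tr (ℝ →ᵇ M)) (on k) (ovr evz (fun t => FL M t) A T') q, ∃ a : k,
        res (mono_ovr mono_FL A t T' ht h) q u =
          a • res (ovr_sub evz (fun t => FL M t) A t) q (g.z t ht) :=
  cls_free hx g (t₀ := t₁) (res_ne_of_le g ht₁ hg) line

/-- **T1 from `line_over`.** -/
theorem ne_odd_of {c B : ℝ} (T : H337T.HTriv 3 (evz (M := M)) (fun t => FL M t)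
      (fun t => P x₀ x₀ t) c) (hB : 0 ≤ B) (O : B64.OmegaOut M 2 x₀ B k) (hx : x₀ ∈ T.Dm) {j : ℕ}
    (g : (XP k M (2 * j + 2)).Fam) {t₁ : ℝ} (ht₁ : 0 < t₁)
    (hg : (res (P_subset_FL (a := x₀)) (2 * j + 2) :
      Ha (tr (ℝ →ᵇ M)) (on k) (FL M t₁) (2 * j + 2) →ₗ[k] _) (g.z t₁ ht₁) ≠ 0)
    (line : ∀ t > 0, ∃ T' ≥ t, ∀ f f' : List (ℝ →ᵇ M) → k,
      CocL (FL M T' ∩ (fun w => w 0) ⁻¹' T.Dm) (2 * j + 2) f →
        CocL (FL M T' ∩ (fun w => w 0) ⁻¹' T.Dm) (2 * j + 2) f' →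
        ∃ a a' : k, (a ≠ 0 ∨ a' ≠ 0) ∧
          ExL (FL M t ∩ (fun w => w 0) ⁻¹' T.Dm) (2 * j + 2) fun l => a * f l + a' * f' l) :
    ∃ o : (XP k M (2 * j + 3)).Fam, ∃ (t : ℝ) (ht : 0 < t), o.z t ht ≠ 0 :=
  H337T.ne_odd T hB O g (cls_free' hx g ht₁ hg line)

end Free

end Vale.Agent.P216.L3C
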