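import Vale.Agent.P216.D246.L3C
import Vale.Agent.P216.H456T.Ler
import Vale.Agent.P216.H126T.Even

/-!
# P216-T, row L: (L3) in class form, final (line_over plugged in)
-/

set_option linter.all false

open Set BoundedContinuousFunction

namespace Vale.Agent.P216.L3C

open Vale.Agent.P216.PS Vale.Agent.P216.Sl Vale.Agent.P216.MV337
open Vale.Agent.P216.AS
open Vale.Agent.P216.H901
open Vale.Agent.P216.E2L (BaseH)
open Vale.Agent.P216.B64 (OmegaOut HU hres)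
open Vale.Agent.P216.H83 (ovr_sub ovr_mono)
open Vale.Agent.P216.H754B (XP GP mono_FL mono_P)

variable {M : Type} [MetricSpace M] [CompactSpace M] [SimplyConnectedSpace M] {x₀ : M} {k : Type}
  [Field k] {B ρ : ℝ}

/-- **The hypothesis `L` of `H337T.ne_odd`** over `A ∋ x₀` with the cohomology of a point. -/
theorem L_of {b : ℕ} (hρ : 0 < ρ) (hU : LS.UniqSeg M ρ) (O : OmegaOut M b x₀ B k) (hB : 0 ≤ B)
    {A : Set M} (hx : x₀ ∈ A) (K : BaseH k A fun p => p = 0) {q : ℕ} (g : (XP k M q).Fam) {t₁ : ℝ}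
    (hg : ∀ t (ht : 0 < t), t₁ ≤ t → H126T.Even.rP k x₀ ht q (g.z t ht) ≠ 0) :
    ∀ t (ht : 0 < t), ∃ T', ∃ h : t ≤ T',
      ∀ u : Ha (tr (ℝ →ᵇ M)) (on k) (ovr evz (fun t => FL M t) A T') q, ∃ a : k,
        res (mono_ovr mono_FL A t T' ht h) q u =
          a • res (ovr_sub evz (fun t => FL M t) A t) q (g.z t ht) :=
  cls_free hx g (t₀ := t₁) hg (H456T.line_over hρ hU O hB hx K q)

/-- **T1, final form.** -/
theorem ne_odd_final {c : ℝ} (T : H337T.HTriv 3 (evz (M := M)) (fun t => FL M t)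
      (fun t => P x₀ x₀ t) c) (hρ : 0 < ρ) (hU : LS.UniqSeg M ρ) (hB : 0 ≤ B)
    (O : OmegaOut M 2 x₀ B k) (hx : x₀ ∈ T.Dm) (K : BaseH k T.Dm fun p => p = 0) {j : ℕ}
    (g : (XP k M (2 * j + 2)).Fam) {t₁ : ℝ}
    (hg : ∀ t (ht : 0 < t), t₁ ≤ t → H126T.Even.rP k x₀ ht (2 * j + 2) (g.z t ht) ≠ 0) :
    ∃ o : (XP k M (2 * j + 3)).Fam, ∃ (t : ℝ) (ht : 0 < t), o.z t ht ≠ 0 :=
  H337T.ne_odd T hB O g (L_of hρ hU O hB hx K g hg)

end Vale.Agent.P216.L3C
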