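import Vale.Agent.P216.D246.Orient

/-!
# P216-D, block [D-NDH] : the top cohomology of a simply connected closed manifold is not zero
-/

set_option linter.all false

open Set Filter Topology

namespace Vale.Agent.P216.D246

open Vale.Agent.P216.AS Vale.Agent.P216.H901 Vale.Agent.P216.H83 Vale.Agent.P216.H133C
  Vale.Agent.P216.C313

section Gen

variable {E : Type} [MetricSpace E] {k : Type} [Field k]

/-- gluing with the same total space -/
theorem glue_same (h2 : (2 : k) ≠ 0) {X A L : Set E} (cX : IsCompact X) (cA : IsCompact A)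
    (cL : IsCompact L) (hA : A ⊆ X) (hL : L ⊆ X) (q : ℕ) (x1 : Hr (tr E) (on k) X A q)
    (x2 : Hr (tr E) (on k) X L q)
    (h : (resR subset_rfl inter_subset_left q x1 : Hr (tr E) (on k) X (A ∩ L) q) =
      resR subset_rfl inter_subset_right q x2) :
    ∃ y : Hr (tr E) (on k) X (A ∪ L) q, resR subset_rfl subset_union_left q y = x1 ∧
      resR subset_rfl subset_union_right q y = x2 := by
  have h' : (resR inter_subset_left inter_subset_left q x1 :
      Hr (tr E) (on k) (X ∩ X) (A ∩ L) q) = resR inter_subset_right inter_subset_right q x2 := by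
    have := congrArg (resR (inter_subset_left : X ∩ X ⊆ X) (subset_rfl : A ∩ L ⊆ A ∩ L) q) h
    rw [resR_resR, resR_resR] at this
    exact this
  obtain ⟨y, h1, h3⟩ := H456D.glue h2 cX cX cA cL hA hL q x1 x2 h'
  refine ⟨resR subset_union_left subset_rfl q y, ?_, ?_⟩
  · rw [resR_resR]
    exact h1
  · rw [resR_resR]
    exact h3

end Gen

namespace Cub

variable {M : Type} [MetricSpace M] [CompactSpace M] {n : ℕ} {k : Type} [Field k]
  {c c' c'' : Cub M n} {v w : Fin n → ℝ} {δ η : ℝ}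

theorem noH_top' (h2 : (2 : k) ≠ 0) (hn : 1 ≤ n) (hδ : δ ≤ 2) {L : Set M} (cL : IsCompact L) :
    NoH k (univ : Set M) (c.A1 0 δ ∪ L) (n + 1) := by
  have cA : IsCompact (c.A1 0 δ ∪ L) := (compact_A1 (by rwa [norm_zero, zero_add])).union cL
  refine noH_exc h2 cA (compact_Bx (c := c) (δ := δ)) ?_ rfl (n + 1)
    (noH_Bx h2 hn hδ (cA.inter compact_Bx) inter_subset_right)
  ext a
  refine ⟨fun _ => ?_, fun _ => mem_univ _⟩
  by_cases h : a ∈ c.D ∧ ‖c.φ a‖ ≤ δ
  · exact Or.inr h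
  · refine Or.inl (Or.inl fun hD => ?_)
    rw [sub_zero]
    by_contra hcon
    exact h ⟨hD, (not_le.1 hcon).le⟩

theorem sum_cover (h2 : (2 : k) ≠ 0) (hn : 1 ≤ n) {N : Set M}
    (S : Submodule k (Hr (tr M) (on k) (univ : Set M) N n)) (C : M → Cub M n) (r : M → ℝ)
    (hr : ∀ b, r b ≤ 2) (T : Finset M) :
    (∀ b ∈ T, ∀ (hs : N ⊆ (C b).A1 0 (r b))
      (z : Hr (tr M) (on k) (univ : Set M) ((C b).A1 0 (r b)) n), resR subset_rfl hs n z ∈ S) →
    ∀ (hN : N ⊆ {a | ∀ b ∈ T, a ∈ (C b).A1 0 (r b)})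
      (z : Hr (tr M) (on k) (univ : Set M) {a | ∀ b ∈ T, a ∈ (C b).A1 0 (r b)} n),
      resR subset_rfl hN n z ∈ S := by
  classical
  have h01 : ∀ b, ‖(0 : Fin n → ℝ)‖ + r b ≤ 2 := fun b => by rw [norm_zero, zero_add]; exact hr b
  have hcl : ∀ T : Finset M, IsCompact {a : M | ∀ b ∈ T, a ∈ (C b).A1 0 (r b)} := by
    intro T
    have : {a : M | ∀ b ∈ T, a ∈ (C b).A1 0 (r b)} = ⋂ b ∈ T, (C b).A1 0 (r b) := by
      ext a
      simp
    rw [this]
    exact (isClosed_biInter fun b _ => (compact_A1 (h01 b)).isClosed).isCompact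
  induction T using Finset.induction_on with
  | empty =>
    intro _ hN z
    have e : ∀ (A : Set M) (_ : A = univ) (hN : N ⊆ A)
        (z : Hr (tr M) (on k) (univ : Set M) A n), resR subset_rfl hN n z ∈ S := by
      rintro A rfl hN z
      rw [show z = 0 from noH_self _ _ z, map_zero]
      exact S.zero_mem
    refine e _ ?_ hN z
    ext a
    simp
  | insert b T hb ih =>
    intro hS hN z
    have hsub : (C b).A1 0 (r b) ∩ {a | ∀ d ∈ T, a ∈ (C d).A1 0 (r d)} ⊆
        {a | ∀ d ∈ insert b T, a ∈ (C d).A1 0 (r d)} := by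
      rintro a ⟨h1, h3⟩ b' hb'
      rcases Finset.mem_insert.1 hb' with rfl | h
      · exact h1
      · exact h3 b' h
    have hN1 : N ⊆ (C b).A1 0 (r b) := fun a ha => hN ha b (Finset.mem_insert_self b T)
    have hN2 : N ⊆ {a | ∀ d ∈ T, a ∈ (C d).A1 0 (r d)} := fun a ha d hd =>
      hN ha d (Finset.mem_insert_of_mem hd)
    obtain ⟨z1, z2, hz⟩ := decomp h2 (compact_A1 (c := C b) (h01 b)) (hcl T) (subset_univ _)
      (subset_univ _) n (noH_top' h2 hn (hr b) (hcl T)) (resR subset_rfl hsub n z)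
    have e1 : resR subset_rfl hN n z = resR subset_rfl hN1 n z1 + resR subset_rfl hN2 n z2 := by
      have hNN : N ⊆ (C b).A1 0 (r b) ∩ {a | ∀ d ∈ T, a ∈ (C d).A1 0 (r d)} :=
        fun a ha => ⟨hN1 ha, hN2 ha⟩
      rw [← resR_resR subset_rfl subset_rfl hsub hNN z, hz, map_add, resR_resR, resR_resR]
    rw [e1]
    exact S.add_mem (hS b (Finset.mem_insert_self b T) hN1 z1)
      (ih (fun d hd => hS d (Finset.mem_insert_of_mem hd)) hN2 z2)

variable (e : Hr (tr (Unit × (Fin n → ℝ))) (on k) (cbE n (univ : Set Unit))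
    (bdE n univ ∅) n ≃ₗ[k] k)

/-- **Spanning.** -/
theorem span_N (h2 : (2 : k) ≠ 0) (hn : 1 ≤ n) (loc : LocEuc M n) {N : Set M} (hN : IsCompact N)
    (S : Submodule k (Hr (tr M) (on k) (univ : Set M) N n))
    (hS : ∀ (c : Cub M n) (δ : ℝ) (hδ : 0 < δ) (hb : ‖(0 : Fin n → ℝ)‖ + δ ≤ 2)
      (hs : N ⊆ c.A1 0 δ), resR subset_rfl hs n (gb e h2 c hδ hb) ∈ S)
    (y : Hr (tr M) (on k) (univ : Set M) N n) : y ∈ S := by
  classical
  obtain ⟨ε₀, hε₀, hex⟩ := exists_relative_nhd (tw_tr h2 (univ : Set M)) (inv_tr _) hN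
    (subset_univ _) (inv_tr _) y
  choose C hC hC0 using loc
  have hr : ∀ b : M, ∃ r : ℝ, 0 < r ∧ r ≤ 2 ∧ (b ∉ N → N ⊆ (C b).A1 0 r) := by
    intro b
    by_cases hb : b ∈ N
    · exact ⟨1, one_pos, one_le_two, fun h => absurd hb h⟩
    · obtain ⟨η, h1, h3, h4, h5⟩ := small_box (c := C b) hN.isClosed (hC b)
        (by rw [hC0, norm_zero]; exact two_pos) hb two_pos
      rw [hC0] at h5
      exact ⟨η, h1, h3, fun _ => h5⟩
  choose r hr0 hr2 hrN using hr
  have h01 : ∀ b, ‖(0 : Fin n → ℝ)‖ + r b ≤ 2 := fun b => by rw [norm_zero, zero_add]; exact hr2 b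
  have hO : IsOpen (Nb (univ : Set M) N ε₀) := by
    have : Nb (univ : Set M) N ε₀ = ⋃ y ∈ N, Metric.ball y ε₀ := by
      ext x
      simp [Nb]
    rw [this]
    exact isOpen_biUnion fun _ _ => Metric.isOpen_ball
  have hNK : ∀ b ∈ (Nb (univ : Set M) N ε₀)ᶜ, b ∉ N := fun b hb h =>
    hb (sub_Nb (subset_univ _) hε₀ h)
  obtain ⟨T, hT1, hT2⟩ := hO.isClosed_compl.isCompact.elim_nhds_subcover
    (fun b : M => {a | a ∈ (C b).D ∧ ‖(C b).φ a - 0‖ < r b}) fun b hb => by
      refine (isOpen_box (h01 b)).mem_nhds ⟨hC b, ?_⟩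
      rw [hC0, sub_zero, norm_zero]
      exact hr0 b
  obtain ⟨hN', z, hz⟩ := hex {a | ∀ b ∈ T, a ∈ (C b).A1 0 (r b)}
    (fun a ha b hb => hrN b (hNK b (hT1 b hb)) ha) (fun a ha => by
      by_contra hcon
      obtain ⟨b, hb, hb'⟩ := mem_iUnion₂.1 (hT2 hcon)
      exact absurd (ha b hb hb'.1) (not_le.2 hb'.2))
  rw [← hz]
  refine sum_cover h2 hn S C r hr2 T (fun b hb hs z => ?_) hN' z
  rw [eq_gb e h2 (hr0 b) (h01 b) z, map_smul]
  exact S.smul_mem _ (hS (C b) (r b) (hr0 b) (h01 b) hs)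

/-- A functional with the right values on the boxes. -/
def Cns (h2 : (2 : k) ≠ 0) (o : Cub M n → k) (N : Set M)
    (I : Hr (tr M) (on k) (univ : Set M) N n →ₗ[k] k) : Prop :=
  ∀ (c : Cub M n) (w : Fin n → ℝ) (η : ℝ) (hη : 0 < η) (hb : ‖w‖ + η ≤ 2) (hs : N ⊆ c.A1 w η),
    I (resR subset_rfl hs n (gb e h2 c hη hb)) = o c

theorem cns_inter (h2 : (2 : k) ≠ 0) (hn : 1 ≤ n) (loc : LocEuc M n) {o : Cub M n → k}
    {A L : Set M} (cA : IsCompact A) (cL : IsCompact L) (h0 : NoH k (univ : Set M) (A ∪ L) (n + 1))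
    {IA : Hr (tr M) (on k) (univ : Set M) A n →ₗ[k] k}
    {IL : Hr (tr M) (on k) (univ : Set M) L n →ₗ[k] k} (hA : Cns e h2 o A IA)
    (hL : Cns e h2 o L IL) :
    ∃ I : Hr (tr M) (on k) (univ : Set M) (A ∩ L) n →ₗ[k] k, Cns e h2 o (A ∩ L) I := by
  let F : (Hr (tr M) (on k) (univ : Set M) A n × Hr (tr M) (on k) (univ : Set M) L n) →ₗ[k]
      Hr (tr M) (on k) (univ : Set M) (A ∩ L) n :=
    (resR subset_rfl inter_subset_left n).coprod (resR subset_rfl inter_subset_right n)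
  let J : (Hr (tr M) (on k) (univ : Set M) A n × Hr (tr M) (on k) (univ : Set M) L n) →ₗ[k] k :=
    IA.coprod IL
  have hF : LinearMap.range F = ⊤ := by
    rw [LinearMap.range_eq_top]
    intro z
    obtain ⟨z1, z2, hz⟩ := decomp h2 cA cL (subset_univ _) (subset_univ _) n h0 z
    exact ⟨(z1, z2), hz.symm⟩
  have hker : ∀ x, F x = 0 → J x = 0 := by
    rintro ⟨z1, z2⟩ hx
    have h1 : (resR subset_rfl inter_subset_left n z1 :
        Hr (tr M) (on k) (univ : Set M) (A ∩ L) n) = resR subset_rfl inter_subset_right n (-z2) := by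
      rw [map_neg]
      exact eq_neg_of_add_eq_zero_left hx
    obtain ⟨y, hy1, hy2⟩ := glue_same h2 isCompact_univ cA cL (subset_univ _) (subset_univ _) n
      z1 (-z2) h1
    have h3 : y ∈ LinearMap.ker (IA ∘ₗ resR subset_rfl subset_union_left n -
        IL ∘ₗ resR subset_rfl subset_union_right n) := by
      refine span_N e h2 hn loc (cA.union cL) _ (fun c δ hδ hb hs => ?_) y
      rw [LinearMap.mem_ker, LinearMap.sub_apply, LinearMap.comp_apply, LinearMap.comp_apply,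
        resR_resR, resR_resR, hA c 0 δ hδ hb, hL c 0 δ hδ hb, sub_self]
    rw [LinearMap.mem_ker, LinearMap.sub_apply, LinearMap.comp_apply, LinearMap.comp_apply,
      hy1, hy2, map_neg, sub_neg_eq_add] at h3
    exact h3
  obtain ⟨s, hs⟩ := F.exists_rightInverse_of_surjective hF
  have key : ∀ x, J (s (F x)) = J x := fun x => by
    rw [← sub_eq_zero, ← map_sub]
    apply hker
    rw [map_sub, sub_eq_zero]
    exact LinearMap.congr_fun hs (F x)
  refine ⟨J ∘ₗ s, fun c w η hη hb hs' => ?_⟩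
  obtain ⟨h1, h3⟩ := ctr_box (c := c) hη hb
  have h4 : c.ψ w ∉ A ∩ L := fun h => notMem_A1 h1 (by rw [h3, sub_self, norm_zero]; exact hη)
    (hs' h)
  have h5 : ‖c.φ (c.ψ w)‖ < 2 := by rw [h3]; linarith
  rw [LinearMap.comp_apply]
  by_cases h6 : c.ψ w ∈ A
  · obtain ⟨ζ, i1, i2, i3, i4⟩ := small_box cL.isClosed h1 h5 (fun h => h4 ⟨h6, h⟩) hη
    rw [h3] at i3 i4
    have i5 : ‖w - w‖ + ζ ≤ η := by rwa [sub_self, norm_zero, zero_add]
    have e1 : resR subset_rfl hs' n (gb e h2 c hη hb) =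
        F (0, resR subset_rfl i4 n (gb e h2 c i1 i3)) := by
      rw [← gb_res e h2 i1 hη i5 hb i3 (A1_anti i5), resR_resR, LinearMap.coprod_apply, map_zero,
        zero_add, resR_resR]
    rw [e1, key, LinearMap.coprod_apply, map_zero, zero_add]
    exact hL c w ζ i1 i3 i4
  · obtain ⟨ζ, i1, i2, i3, i4⟩ := small_box cA.isClosed h1 h5 h6 hη
    rw [h3] at i3 i4
    have i5 : ‖w - w‖ + ζ ≤ η := by rwa [sub_self, norm_zero, zero_add]
    have e1 : resR subset_rfl hs' n (gb e h2 c hη hb) =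
        F (resR subset_rfl i4 n (gb e h2 c i1 i3), 0) := by
      rw [← gb_res e h2 i1 hη i5 hb i3 (A1_anti i5), resR_resR, LinearMap.coprod_apply, map_zero,
        add_zero, resR_resR]
    rw [e1, key, LinearMap.coprod_apply, map_zero, add_zero]
    exact hA c w ζ i1 i3 i4

/-- The top class of a chart is not zero. -/
theorem lesA_gb_ne [SimplyConnectedSpace M] [LocallyPathConnectedSpace M] (h2 : (2 : k) ≠ 0)
    (hn : 1 ≤ n) (loc : LocEuc M n) (c : Cub M n) :
    lesA k (univ : Set M) (c.A1 0 2) n (gb e h2 c two_pos h02) ≠ 0 := by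
  classical
  obtain ⟨o, ho, ho'⟩ := exists_orient h2 loc e
  have loc' := loc
  choose C hC hC0 using loc
  have h01 : ‖(0 : Fin n → ℝ)‖ + 1 ≤ 2 := by rw [norm_zero]; norm_num
  have hcl : ∀ T : Finset M, IsCompact {a : M | ∀ b ∈ T, a ∈ (C b).A1 0 1} := by
    intro T
    have : {a : M | ∀ b ∈ T, a ∈ (C b).A1 0 1} = ⋂ b ∈ T, (C b).A1 0 1 := by
      ext a
      simp
    rw [this]
    exact (isClosed_biInter fun b _ => (compact_A1 h01).isClosed).isCompact
  have hone : ∀ c : Cub M n, Cns e h2 o (c.A1 0 1) (o c • cc e c one_pos h01) := by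
    intro c c' w η hη hb hs
    have i1 : ‖(0 : Fin n → ℝ) - 0‖ + 1 ≤ 2 := by rwa [sub_zero]
    rw [LinearMap.smul_apply, smul_eq_mul, ← cc_res e one_pos two_pos i1 h02 h01 (A1_anti i1),
      resR_resR]
    exact ho' c c' w η hη hb _
  have main : ∀ T : Finset M, ∃ I : Hr (tr M) (on k) (univ : Set M)
      {a : M | ∀ b ∈ T, a ∈ (C b).A1 0 1} n →ₗ[k] k, Cns e h2 o _ I := by
    intro T
    induction T using Finset.induction_on with
    | empty =>
      refine ⟨0, fun c w η hη hb hs => ?_⟩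
      obtain ⟨h1, h3⟩ := ctr_box (c := c) hη hb
      exact absurd (hs (show c.ψ w ∈ {a : M | ∀ b ∈ (∅ : Finset M), a ∈ (C b).A1 0 1} from
        fun b hb => absurd hb (Finset.notMem_empty b)))
        (notMem_A1 h1 (by rw [h3, sub_self, norm_zero]; exact hη))
    | insert b T hb ih =>
      obtain ⟨IL, hIL⟩ := ih
      obtain ⟨I, hI⟩ := cns_inter e h2 hn loc' (compact_A1 (c := C b) h01) (hcl T)
        (noH_top' h2 hn one_le_two (hcl T)) (hone (C b)) hIL
      have e1 : {a : M | ∀ d ∈ insert b T, a ∈ (C d).A1 0 1} =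
          (C b).A1 0 1 ∩ {a | ∀ d ∈ T, a ∈ (C d).A1 0 1} := by
        ext a
        simp
      rw [e1]
      exact ⟨I, hI⟩
  obtain ⟨T, hT⟩ := isCompact_univ.elim_nhds_subcover
    (fun b : M => {a | a ∈ (C b).D ∧ ‖(C b).φ a - 0‖ < 1}) fun b _ => by
      refine (isOpen_box h01).mem_nhds ⟨hC b, ?_⟩
      rw [hC0, sub_zero, norm_zero]
      exact one_pos
  have hB : {a : M | ∀ b ∈ T, a ∈ (C b).A1 0 1} ⊆ (∅ : Set M) := by
    intro a ha
    obtain ⟨b, hb, hb'⟩ := mem_iUnion₂.1 (hT.2 (mem_univ a))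
    exact absurd (ha b hb hb'.1) (not_le.2 hb'.2)
  obtain ⟨I, hI⟩ := main T
  intro h0
  have h1 := hI c 0 2 two_pos h02 (hB.trans (empty_subset _))
  have e1 : resR subset_rfl (hB.trans (empty_subset _)) n (gb e h2 c two_pos h02) =
      resR subset_rfl hB n (lesA k (univ : Set M) (c.A1 0 2) n (gb e h2 c two_pos h02)) := by
    rw [lesA, resR_resR]
  rw [e1, h0, map_zero, map_zero] at h1
  exact ho c h1.symm

end Cub

end Vale.Agent.P216.D246
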