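import Vale.Agent.P216.D246.Span

/-!
# P216-D, block [D-THOM] : the top cohomology of a closed connected manifold, 2
-/

set_option linter.all false

open Set Filter Topology

namespace Vale.Agent.P216.D246

open Vale.Agent.P216.AS Vale.Agent.P216.H901 Vale.Agent.P216.H83 Vale.Agent.P216.H133C
  Vale.Agent.P216.C313

/-- A generator of `H^n (I^n, ∂I^n)`. -/
theorem exists_gen {k : Type} [Field k] (h2 : (2 : k) ≠ 0) (n : ℕ) :
    ∃ ι : Hr (tr (Unit × (Fin n → ℝ))) (on k) (cbE n (univ : Set Unit)) (bdE n univ ∅) n,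
      ∀ x, ∃ a : k, x = a • ι := by
  obtain ⟨e⟩ := cube_equiv (k := k) h2 n
  refine ⟨e.symm 1, fun x => ⟨e x, ?_⟩⟩
  apply e.injective
  rw [map_smul, e.apply_symm_apply, smul_eq_mul, mul_one]

namespace Cub

variable {M : Type} [MetricSpace M] [CompactSpace M] {n : ℕ} {k : Type} [Field k] {c c' : Cub M n}
  {v w : Fin n → ℝ} {δ η : ℝ}
  {ι : Hr (tr (Unit × (Fin n → ℝ))) (on k) (cbE n (univ : Set Unit)) (bdE n univ ∅) n}

/-- `s` is the class of the boxes of the chart `c`. -/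
def IsS (ι : Hr (tr (Unit × (Fin n → ℝ))) (on k) (cbE n (univ : Set Unit)) (bdE n univ ∅) n)
    (c : Cub M n) (s : Hr (tr M) (on k) (univ : Set M) ∅ n) : Prop :=
  ∀ (v : Fin n → ℝ) (δ : ℝ) (hδ : 0 < δ) (hb : ‖v‖ + δ ≤ 2)
    (x : Hr (tr M) (on k) univ (c.A1 v δ) n) (a : k),
    pullR (on k) (isMap_th hδ.le hb) bdE_sub (mapsTo_th hδ.le hb) n x = a • ι →
      lesA k univ (c.A1 v δ) n x = a • s

theorem exists_s (h2 : (2 : k) ≠ 0)
    (ι : Hr (tr (Unit × (Fin n → ℝ))) (on k) (cbE n (univ : Set Unit)) (bdE n univ ∅) n)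
    (c : Cub M n) : ∃ s, IsS ι c s := by
  have h02 : ‖(0 : Fin n → ℝ)‖ + 2 ≤ 2 := by rw [norm_zero]; norm_num
  obtain ⟨g, hg⟩ := (th_bij (c := c) h2 two_pos h02 n).2 ι
  refine ⟨lesA k univ _ n g, fun v δ hδ hb x a hx => ?_⟩
  have hv : ‖v - 0‖ + δ ≤ 2 := by rwa [sub_zero]
  have e := th_res (c := c) hδ hv h02 zero_le_two hb n x
  rw [hx, ← hg, ← map_smul] at e
  have e2 := (th_bij (c := c) h2 two_pos h02 n).1 e
  rw [← lesA_resR (A1_anti hv), e2, map_smul]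

/-- The open box is a neighbourhood. -/
theorem isOpen_box (hb : ‖v‖ + δ ≤ 2) : IsOpen {a | a ∈ c.D ∧ ‖c.φ a - v‖ < δ} := by
  have h := (compact_A1 (c := c) hb).isClosed.isOpen_compl
  have e : {a | a ∈ c.D ∧ ‖c.φ a - v‖ < δ} = (c.A1 v δ)ᶜ := by
    ext a
    simp only [A1, mem_compl_iff, mem_ofPred_eq, not_forall, not_le, exists_prop]
  rw [e]
  exact h

/-- A small box of another chart in a box. -/
theorem exists_box {b : M} (hb : b ∈ c.D) (hb' : ‖c.φ b‖ < 2) (hc : b ∈ c'.D)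
    (hc' : ‖c'.φ b‖ < 2) : ∃ (v w : Fin n → ℝ) (δ η : ℝ), 0 < δ ∧ 0 < η ∧ ‖v‖ + δ ≤ 2 ∧
      ‖w‖ + η ≤ 2 ∧ c.A1 v δ ⊆ c'.A1 w η := by
  have h1 : ‖c.φ b‖ + (2 - ‖c.φ b‖) ≤ 2 := by linarith
  have hU := isOpen_box (c := c) h1
  have hbU : b ∈ {a | a ∈ c.D ∧ ‖c.φ a - c.φ b‖ < 2 - ‖c.φ b‖} := by
    refine ⟨hb, ?_⟩
    rw [sub_self, norm_zero]
    linarith
  have h2 : {a | a ∈ c.D ∧ ‖c.φ a - c.φ b‖ < 2 - ‖c.φ b‖} ∈ 𝓝 (c'.ψ (c'.φ b)) := by
    rw [c'.ψφ b hc]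
    exact hU.mem_nhds hbU
  have h3 := (c'.ψ_cont (c'.φ b) hc'.le) h2
  rw [mem_map, mem_nhdsWithin_iff_exists_mem_nhds_inter] at h3
  obtain ⟨V, hV, hV'⟩ := h3
  obtain ⟨η, hη, hη'⟩ := Metric.mem_nhds_iff.1 hV
  have hm : 0 < min η (2 - ‖c'.φ b‖) := lt_min hη (by linarith)
  refine ⟨c.φ b, c'.φ b, 2 - ‖c.φ b‖, min η (2 - ‖c'.φ b‖), by linarith, hm, h1, ?_, ?_⟩
  · have := min_le_right η (2 - ‖c'.φ b‖)
    linarith
  · intro a ha haD
    by_contra hcon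
    rw [not_le] at hcon
    have h4 : c'.φ a ∈ Metric.ball (c'.φ b) η := by
      rw [Metric.mem_ball, dist_eq_norm]
      exact hcon.trans_le (min_le_left _ _)
    have h5 := hV' ⟨hη' h4, c'.φ_le a haD⟩
    have h6 : c'.ψ (c'.φ a) ∈ {a | a ∈ c.D ∧ ‖c.φ a - c.φ b‖ < 2 - ‖c.φ b‖} := h5
    rw [c'.ψφ a haD] at h6
    exact absurd (ha h6.1) (not_le.2 h6.2)

/-- Two charts with a common interior point have proportional classes. -/
theorem s_mem (h2 : (2 : k) ≠ 0) (hι : ∀ x, ∃ a : k, x = a • ι)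
    {s s' : Hr (tr M) (on k) (univ : Set M) ∅ n} (hs : IsS ι c s) (hs' : IsS ι c' s') {b : M}
    (hb : b ∈ c.D) (hb' : ‖c.φ b‖ < 2) (hc : b ∈ c'.D) (hc' : ‖c'.φ b‖ < 2) :
    ∃ a : k, s' = a • s := by
  obtain ⟨v, w, δ, η, hδ, hη, h1, h3, h4⟩ := exists_box hb hb' hc hc'
  obtain ⟨g, hg⟩ := (th_bij (c := c') h2 hη h3 n).2 ι
  have e1 := hs' w η hη h3 g 1 (by rw [hg, one_smul])
  rw [one_smul] at e1
  obtain ⟨a, ha⟩ := hι (pullR (on k) (isMap_th (c := c) hδ.le h1) bdE_sub (mapsTo_th hδ.le h1) n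
    (resR subset_rfl h4 n g))
  refine ⟨a, ?_⟩
  rw [← hs v δ hδ h1 _ a ha, lesA_resR, e1]

/-- **Spanning.** -/
theorem span_cover (h2 : (2 : k) ≠ 0) (hn : 1 ≤ n) (hι : ∀ x, ∃ a : k, x = a • ι)
    (S : Submodule k (Hr (tr M) (on k) (univ : Set M) ∅ n))
    (hS : ∀ (c : Cub M n) (s), IsS ι c s → s ∈ S) (C : M → Cub M n) (T : Finset M) :
    ∀ z : Hr (tr M) (on k) (univ : Set M) {a | ∀ b ∈ T, a ∈ (C b).A1 0 1} n,
      lesA k univ _ n z ∈ S := by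
  classical
  have h01 : ‖(0 : Fin n → ℝ)‖ + 1 ≤ 2 := by rw [norm_zero]; norm_num
  have hcl : ∀ T : Finset M, IsCompact {a : M | ∀ b ∈ T, a ∈ (C b).A1 0 1} := by
    intro T
    have : {a : M | ∀ b ∈ T, a ∈ (C b).A1 0 1} = ⋂ b ∈ T, (C b).A1 0 1 := by
      ext a
      simp
    rw [this]
    exact (isClosed_biInter fun b _ => (compact_A1 h01).isClosed).isCompact
  induction T using Finset.induction_on with
  | empty =>
    intro z
    have e : ∀ (A : Set M) (_ : A = univ) (z : Hr (tr M) (on k) (univ : Set M) A n),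
        lesA k univ A n z ∈ S := by
      rintro A rfl z
      rw [show z = 0 from noH_self _ _ z, map_zero]
      exact S.zero_mem
    refine e _ ?_ z
    ext a
    simp
  | insert b T hb ih =>
    intro z
    have hsub : (C b).A1 0 1 ∩ {a | ∀ b ∈ T, a ∈ (C b).A1 0 1} ⊆
        {a | ∀ d ∈ insert b T, a ∈ (C d).A1 0 1} := by
      rintro a ⟨h1, h3⟩ b' hb'
      rcases Finset.mem_insert.1 hb' with rfl | h
      · exact h1
      · exact h3 b' h
    obtain ⟨z1, z2, hz⟩ := decomp h2 (compact_A1 (c := C b) h01) (hcl T) (subset_univ _)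
      (subset_univ _) n (noH_top h2 hn (hcl T)) (resR subset_rfl hsub n z)
    rw [← lesA_resR hsub, hz, map_add, lesA_resR, lesA_resR]
    refine S.add_mem ?_ (ih z2)
    obtain ⟨s, hs⟩ := exists_s h2 ι (C b)
    obtain ⟨a, ha⟩ := hι (pullR (on k) (isMap_th (c := C b) zero_le_one h01) bdE_sub
      (mapsTo_th zero_le_one h01) n z1)
    rw [hs 0 1 one_pos h01 z1 a ha]
    exact S.smul_mem _ (hS _ _ hs)

/-- `H^n (M)` is spanned by the class of any chart. -/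
theorem span_top [PreconnectedSpace M] (h2 : (2 : k) ≠ 0) (hn : 1 ≤ n)
    (hι : ∀ x, ∃ a : k, x = a • ι) (loc : LocEuc M n) {s : Hr (tr M) (on k) (univ : Set M) ∅ n}
    (hs : IsS ι c s) (z : Hr (tr M) (on k) (univ : Set M) ∅ n) : ∃ a : k, z = a • s := by
  classical
  choose C hC hC0 using loc
  choose f hf using fun c : Cub M n => exists_s (M := M) h2 ι c
  have hC2 : ∀ b, ‖(C b).φ b‖ < 2 := fun b => by rw [hC0, norm_zero]; exact two_pos
  -- constancy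
  have hloc : IsLocallyConstant fun b : M => Submodule.span k {f (C b)} := by
    rw [IsLocallyConstant.iff_eventually_eq]
    intro x
    filter_upwards [(C x).open_int.mem_nhds ⟨hC x, hC2 x⟩] with y hy
    apply le_antisymm
    · rw [Submodule.span_singleton_le_iff_mem, Submodule.mem_span_singleton]
      obtain ⟨a, ha⟩ := s_mem h2 hι (hf (C x)) (hf (C y)) hy.1 hy.2 (hC y) (hC2 y)
      exact ⟨a, ha.symm⟩
    · rw [Submodule.span_singleton_le_iff_mem, Submodule.mem_span_singleton]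
      obtain ⟨a, ha⟩ := s_mem h2 hι (hf (C y)) (hf (C x)) (hC y) (hC2 y) hy.1 hy.2
      exact ⟨a, ha.symm⟩
  have hS : ∀ (c' : Cub M n) (s'), IsS ι c' s' → s' ∈ Submodule.span k {s} := by
    intro c' s' hs'
    have h0 : ‖(0 : Fin n → ℝ)‖ ≤ 2 := by rw [norm_zero]; exact zero_le_two
    have hm : ∀ c : Cub M n, c.ψ 0 ∈ c.D ∧ ‖c.φ (c.ψ 0)‖ < 2 := fun c =>
      ⟨c.ψ_mem 0 h0, by rw [c.φψ 0 h0, norm_zero]; exact two_pos⟩
    have e1 : s' ∈ Submodule.span k {f (C (c'.ψ 0))} := by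
      rw [Submodule.mem_span_singleton]
      obtain ⟨a, ha⟩ := s_mem h2 hι (hf (C (c'.ψ 0))) hs' (hC _) (hC2 _) (hm c').1 (hm c').2
      exact ⟨a, ha.symm⟩
    have e2 : Submodule.span k {f (C (c.ψ 0))} ≤ Submodule.span k {s} := by
      rw [Submodule.span_singleton_le_iff_mem, Submodule.mem_span_singleton]
      obtain ⟨a, ha⟩ := s_mem h2 hι hs (hf (C (c.ψ 0))) (hm c).1 (hm c).2 (hC _) (hC2 _)
      exact ⟨a, ha.symm⟩
    have e3 := hloc.apply_eq_of_preconnectedSpace (c'.ψ 0) (c.ψ 0)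
    exact e2 (e3 ▸ e1)
  have h01 : ‖(0 : Fin n → ℝ)‖ + 1 ≤ 2 := by rw [norm_zero]; norm_num
  obtain ⟨T, hT⟩ := isCompact_univ.elim_nhds_subcover
    (fun b : M => {a | a ∈ (C b).D ∧ ‖(C b).φ a - 0‖ < 1}) fun b _ => by
      refine (isOpen_box h01).mem_nhds ⟨hC b, ?_⟩
      rw [hC0, sub_zero, norm_zero]
      exact one_pos
  have hB : {a : M | ∀ b ∈ T, a ∈ (C b).A1 0 1} ⊆ (∅ : Set M) := by
    intro a ha
    obtain ⟨b, hb, hb'⟩ := mem_iUnion₂.1 (hT.2 (mem_univ a))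
    exact absurd (ha b hb hb'.1) (not_le.2 hb'.2)
  have h3 := span_cover h2 hn hι (Submodule.span k {s}) hS C T (resR subset_rfl hB n z)
  have e : lesA k univ _ n (resR subset_rfl hB n z) = z := by
    obtain ⟨g, hg, rfl⟩ := H.exists_mk z
    rfl
  rw [e, Submodule.mem_span_singleton] at h3
  obtain ⟨a, ha⟩ := h3
  exact ⟨a, ha.symm⟩

end Cub

end Vale.Agent.P216.D246
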